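import Vale.Agent.P057ZZ.Wire
import Vale.Agent.P057FC.Asm
import Vale.Agent.P057EA.Ena
import Vale.Agent.P057PO.Pop
import Vale.Agent.P057CR.Chn
import Vale.Agent.P057EN.Para
import Vale.Agent.P057DP.Bxx
import Vale.Agent.P057NL.Wit
import Vale.Agent.P057EF.Fin

/-!
All blocks.
-/

open Vale.Agent.P057TP Vale.Agent.P057SG

namespace Vale.Agent.P057ZZ

/-- the bound -/
theorem result_all : RESULT :=
  result_two (fun s => P057EA.ena s (P057PO.pop s) (P057CR.chn P057DP.box_ex s)
    (P057EN.para P057DP.box_ex P057NL.wit s) (P057EF.fin P057NL.dbl P057NL.wit s)) P057FC.trf_all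

end Vale.Agent.P057ZZ
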