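import Vale.Agent.P057ZZ.Wire
import Vale.Agent.P057XL.Xloc
import Vale.Agent.P057ST.Start
import Vale.Agent.P057S1.All
import Vale.Agent.P057CR.Cover
import Vale.Agent.P057GA.Pce
import Vale.Agent.P057IV.Inv
import Vale.Agent.P057AB.Asb
import Vale.Agent.P057SK.Sig
import Vale.Agent.P057DI.Gdc
import Vale.Agent.P057AS.Mst
import Vale.Agent.P057DM.Dem
import Vale.Agent.P057DM.Round
import Vale.Agent.P057HT.Hat
import Vale.Agent.P057SY.Alt
import Vale.Agent.P057PU.Pull
import Vale.Agent.P057MC.Morc
import Vale.Agent.P057DR.Drp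
import Vale.Agent.P057CO.Res
import Vale.Agent.P057FI.Fin

/-!
More blocks wired together.
-/

open Vale.Agent.P057TP Vale.Agent.P057SG

namespace Vale.Agent.P057ZZ

/-- the bound from the energy step, the transfer and the symmetry argument -/
theorem result_of2 (hE : ∀ s, EN s) (hT : ∀ s, P057AS.TRF s) (hS : ∀ s, P057SY.SYM s) : RESULT :=
  result_of P057XL.xloc (fun s _ => P057ST.start s) P057S1.s1T hE
    (fun _ => P057CR.cover _ (P057GA.piece _)) (fun _ => P057IV.inv_all _)
    (fun s => P057AB.asb s P057SK.sig (P057DI.gdc s) P057AS.mst (hT s) P057DM.dem)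
    fun s => P057DM.round (P057HT.hat P057SY.syf s) P057PU.pull (P057MC.morc s)
      (P057RG.reg (P057TE.test s) (P057XL.event s)) (P057DR.drp s) (hS s) (P057CO.rel s)
      fun _ => P057FI.fin (P057XL.xloc s)

end Vale.Agent.P057ZZ
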