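import Vale.Agent.P057FN.Res
import Vale.Agent.P057FN.Inc
import Vale.Agent.P057DW.Down
import Vale.Agent.P057DW.Syi
import Vale.Agent.P057RG.Fin
import Vale.Agent.P057EV.Evt
import Vale.Agent.P057FZ.Fin
import Vale.Agent.P057TE.Test
import Vale.Agent.P057GH.Cd
import Vale.Agent.P057PC.Cub
import Vale.Agent.P057SA.Stg
import Vale.Agent.P057DR.Drop
import Vale.Agent.P057RA.Root
import Vale.Agent.P057RC.Root
import Vale.Agent.P057RO.Mgm
import Vale.Agent.P057DR.Drp
import Vale.Agent.P057ST.Start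
import Vale.Agent.P057S1.All
import Vale.Agent.P057CR.Cover
import Vale.Agent.P057IV.Inv
import Vale.Agent.P057DM.Round
import Vale.Agent.P057DM.Dem
import Vale.Agent.P057HT.Hat
import Vale.Agent.P057PU.Pull
import Vale.Agent.P057MC.Morc
import Vale.Agent.P057CO.Res
import Vale.Agent.P057AB.Asb
import Vale.Agent.P057AS.Mst
import Vale.Agent.P057SK.Sig
import Vale.Agent.P057DI.Gdc
import Vale.Agent.P057XL.Xloc
import Vale.Agent.P057FI.Fin
import Vale.Agent.P057SY.Sym
import Vale.Agent.P057SM.Sym1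

/-!
The proved blocks wired together.
-/

open Vale.Agent.P057TP Vale.Agent.P057SG

namespace Vale.Agent.P057ZZ

/-- the bound from the blocks that are proved in other files -/
theorem result_of (hX : ∀ s, XLOC s) (hS : ∀ s, 1 ≤ s → START s) (h1 : ∀ s, S1 s) (hE : ∀ s, EN s)
    (hC : ∀ n, COVER (Option (Fin n))) (hI : ∀ n, P057IV.INV (Option (Fin n))) (hA : ∀ s, ASM s)
    (hR : ∀ s, P057SY.ROUND s) : RESULT := by
  refine P057FN.result_of (fun s hs => ?_) P057TE.thb
  have ev := P057EV.event (hX s) (P057FZ.sheet0 s)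
  have rg := P057RG.reg (P057TE.test s) ev
  have ub := P057GH.ub P057PC.cub s
  have dw := P057DW.down (P057SA.stg s (h1 s) (P057DR.drop s) (hE s) P057RA.roota
    (P057RC.root_of P057RA.roota (P057RO.mgm s)) hC hI (hA s) (P057DW.syi (hR s))) rg
    (P057GH.cd P057PC.cub s) ev (P057TE.test s)
  exact ⟨P057FN.inc hs (hS s hs) rg (P057GH.pt' P057PC.cub s) (P057GH.gh0 P057PC.cub s) ub dw, ub, dw⟩

/-- the bound from the last two blocks -/
theorem result_two (hE : ∀ s, EN s) (hT : ∀ s, P057AS.TRF s) : RESULT :=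
  result_of P057XL.xloc (fun s _ => P057ST.start s) P057S1.s1T hE
    (fun _ => P057CR.cover _ (P057GA.piece _)) (fun _ => P057IV.inv_all _)
    (fun s => P057AB.asb s P057SK.sig (P057DI.gdc s) P057AS.mst (hT s) P057DM.dem)
    fun s => P057DM.round (P057HT.hat P057SY.syf s) P057PU.pull (P057MC.morc s)
      (P057RG.reg (P057TE.test s) (P057XL.event s)) (P057DR.drp s)
      (P057SY.symm s (P057SM.sym1 s)) (P057CO.rel s) fun _ => P057FI.fin (P057XL.xloc s)

end Vale.Agent.P057ZZ
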